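import Vale.Agent.P100.Assembly
import Vale.Agent.P100.Blocks
import Vale.Agent.P100.FamilyTwo.Poly

/-!
# P100: the Lane–Emden system for `n ≥ 5` and `α + β ≥ 15 (n - 2) / 14`

Here `α = 2(p+1)/(pq-1)`, `β = 2(q+1)/(pq-1)`. By symmetry `p ≥ q`; then the certificate depends on
`n` and `w = β/(α+β) ≤ 1/2` only.
-/

namespace Vale.Agent.P100.FamilyTwo

open Filter Topology

/-- The weight exponent on `u`. -/
noncomputable def cA (g : ℝ) : ℝ := qB g / (1 + 2 * g)

/-- The coefficient of `|a|² a`. -/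
noncomputable def c1 (w g : ℝ) : ℝ := qC1 w g / (1 + 2 * g)

/-- The coefficient of `|a|² b`. -/
noncomputable def c2 (g : ℝ) : ℝ := qC2 g / (1 + 2 * g)

/-- The coefficient of `|b|² a`. -/
noncomputable def c3 (w g : ℝ) : ℝ := qC3 w g / (1 + 2 * g)

/-- The coefficient of `s b`. -/
noncomputable def cG (w g : ℝ) : ℝ := gam w g / (w * (1 - w))

/-- The part of `|a|²|b|²` moved to `(a·b)²`. -/
noncomputable def cT (w g : ℝ) : ℝ :=
  c3 w g * (cA g - 1) - ((c2 g + 1 / 2) ^ 2 + (c3 w g + cA g / 2) ^ 2) / 2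

/-- The determinant of the `(s, a, b)` block. -/
noncomputable def sideS (N w g p : ℝ) : ℝ :=
  (-(1 + 2 / N) * c1 w g - (cA g - 2) / N) * (-c3 w g + cG w g * (1 + p - 1)) -
    ((-(2 / N) * c2 g - (1 / N + p) + cG w g * (cA g - 1)) / 2) ^ 2

/-- The determinant of the `(t, a, b)` block. -/
noncomputable def sideT (N w g q ε : ℝ) : ℝ :=
  (-(1 + 2 / N) * (-1 / 2) - (1 - 2) / N) *
      (-c2 g + (2 / N - 2 * ε - cG w g) * (cA g + q - 1)) -
    ((-(2 / N) * c3 w g + (2 / N - 2 * ε - cG w g) * (1 - 1) - (cA g / N + q)) / 2) ^ 2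

variable {w g N : ℝ}

theorem sideS_eq (hw : 0 < w) (hw' : w < 1) (hg : 0 < g) (hN : N = (1 + 2 * g) / g) (h : ℝ) :
    sideS N w g ((1 - w + h) / w) = qS w g h / (w ^ 2 * (1 - w) ^ 2 * (1 + 2 * g) ^ 4) := by
  have : 1 + 2 * g ≠ 0 := by positivity
  have : 1 - w ≠ 0 := by linarith
  subst hN
  simp only [sideS, qS, c1, c2, c3, cA, cG, qB, qC1, qC2, qC3]
  field_simp
  ring

theorem sideT_eq (hw : 0 < w) (hw' : w < 1) (hg : 0 < g) (hN : N = (1 + 2 * g) / g) (h : ℝ) :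
    sideT N w g ((w + h) / (1 - w)) 0 = qT w g h / (w * (1 - w) ^ 2 * (1 + 2 * g) ^ 4) := by
  have : 1 + 2 * g ≠ 0 := by positivity
  have : 1 - w ≠ 0 := by linarith
  subst hN
  simp only [sideT, qT, c2, c3, cA, cG, qB, qC2, qC3]
  field_simp
  ring

theorem sideS_interp (p₀ p₁ t : ℝ) :
    sideS N w g ((1 - t) * p₀ + t * p₁) = (1 - t) * sideS N w g p₀ + t * sideS N w g p₁ +
      t * (1 - t) * ((p₁ - p₀) ^ 2 / 4) := by
  simp only [sideS]
  ring

theorem sideT_interp (q₀ q₁ t : ℝ) :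
    sideT N w g ((1 - t) * q₀ + t * q₁) 0 = (1 - t) * sideT N w g q₀ 0 + t * sideT N w g q₁ 0 +
      t * (1 - t) * ((q₁ - q₀) ^ 2 / 4) := by
  simp only [sideT]
  ring

theorem convex_pos {a b c t : ℝ} (ha : 0 < a) (hb : 0 < b) (hc : 0 ≤ c) (h0 : 0 ≤ t) (h1 : t ≤ 1) :
    0 < (1 - t) * a + t * b + t * (1 - t) * c := by
  have : 0 ≤ t * (1 - t) * c := mul_nonneg (mul_nonneg h0 (by linarith)) hc
  nlinarith [min_le_left a b, min_le_right a b, lt_min ha hb]

theorem sides_pos (hw : 0 < w) (hw' : w ≤ 1 / 2) (hg : 0 < g) (hg' : g ≤ 1 / 3)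
    (hN : N = (1 + 2 * g) / g) {h : ℝ} (h0 : 0 ≤ h) (h1 : h ≤ 28 / 15 * g) :
    0 < sideS N w g ((1 - w + h) / w) ∧ 0 < sideT N w g ((w + h) / (1 - w)) 0 := by
  have hw1 : w < 1 := by linarith
  have hd : 0 < 1 - w := by linarith
  set t := h / (28 / 15 * g) with ht
  have ht0 : 0 ≤ t := div_nonneg h0 (by positivity)
  have ht1 : t ≤ 1 := (div_le_one (by positivity)).2 h1
  have hh : h = t * (28 / 15 * g) := by rw [ht, div_mul_cancel₀ _ (by positivity)]
  have eS : (1 - w + h) / w = (1 - t) * ((1 - w + 0) / w) + t * ((1 - w + 28 / 15 * g) / w) := by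
    rw [hh]; field_simp; ring
  have eT : (w + h) / (1 - w) = (1 - t) * ((w + 0) / (1 - w)) +
      t * ((w + 28 / 15 * g) / (1 - w)) := by
    rw [hh]; field_simp; ring
  constructor
  · rw [eS, sideS_interp, sideS_eq hw hw1 hg hN, sideS_eq hw hw1 hg hN]
    exact convex_pos (div_pos (qS0_pos w g hg hw.le hw' hg') (by positivity))
      (div_pos (qS1_pos w g hg hw.le hw' hg') (by positivity)) (by positivity) ht0 ht1
  · rw [eT, sideT_interp, sideT_eq hw hw1 hg hN, sideT_eq hw hw1 hg hN]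
    exact convex_pos (div_pos (qT0_pos w g hg hw.le hw' hg') (by positivity))
      (div_pos (qT1_pos w g hg hw.le hw' hg') (by positivity)) (by positivity) ht0 ht1

theorem form_nonneg {a b M R S : ℝ} (hb : 0 < b) (hi : 0 < M * b - S ^ 2)
    (hd : 0 < a * (M * b - S ^ 2) - R ^ 2 * b) (x y z : ℝ) :
    0 ≤ a * x ^ 2 + 2 * R * (x * y) + M * y ^ 2 + 2 * S * (y * z) + b * z ^ 2 := by
  refine nonneg_of_mul_nonneg_right (nonneg_of_mul_nonneg_right ?_ hi) hb
  have e : (M * b - S ^ 2) * (b * (a * x ^ 2 + 2 * R * (x * y) + M * y ^ 2 + 2 * S * (y * z) +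
      b * z ^ 2)) = (M * b - S ^ 2) * (b * z + S * y) ^ 2 +
      ((M * b - S ^ 2) * y + R * b * x) ^ 2 +
      b * (a * (M * b - S ^ 2) - R ^ 2 * b) * x ^ 2 := by ring
  rw [e]
  positivity

theorem wForm_eq {n : ℕ} (hg : 0 < g) (hN : (n : ℝ) = (1 + 2 * g) / g) (x y z : ℝ) :
    wForm n (cA g) 1 (c1 w g) (c2 g) (c3 w g) (-1 / 2) (cT w g) x y z =
      qA w g / (1 + 2 * g) ^ 3 * x ^ 2 + 2 * (qR w g / (2 * (1 + 2 * g) ^ 3)) * (x * y) +
        qM w g / (1 + 2 * g) ^ 3 * y ^ 2 +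
        2 * (-(ww w g * g) * (1 / (2 * (1 + 2 * g) ^ 2))) * (y * z) +
        g / (1 + 2 * g) * z ^ 2 := by
  have : 1 + 2 * g ≠ 0 := by positivity
  simp only [wForm, hN, cT, c1, c2, c3, cA, qA, qR, qM, qB, qC1, qC2, qC3]
  field_simp
  ring

/-- The certificate of the second family, for `p ≥ q`. -/
theorem exists_cert {n : ℕ} (hn : 5 ≤ n) {p q h : ℝ} (hw : 0 < w) (hw' : w ≤ 1 / 2)
    (hg : g = 1 / ((n : ℝ) - 2)) (h0 : 0 ≤ h) (h1 : h ≤ 28 / 15 * g)
    (hp : p = (1 - w + h) / w) (hq : q = (w + h) / (1 - w)) :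
    ∃ (δ : ℝ) (c : Fin 14 → ℝ), 0 < δ ∧ IsCert n p q (cA g) 1 δ c := by
  have hN5 : (5 : ℝ) ≤ n := by exact_mod_cast hn
  have hg0 : 0 < g := by rw [hg]; exact div_pos one_pos (by linarith)
  have hg' : g ≤ 1 / 3 := by
    rw [hg]; exact div_le_div_of_nonneg_left one_pos.le (by norm_num) (by linarith)
  have hD : 0 < 1 + 2 * g := by positivity
  have hN : (n : ℝ) = (1 + 2 * g) / g := by
    have : (n : ℝ) - 2 ≠ 0 := by linarith
    rw [hg]; field_simp; ring
  obtain ⟨hS, hT⟩ := sides_pos hw hw' hg0 hg' hN h0 h1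
  rw [← hp] at hS
  rw [← hq] at hT
  set a := qA w g / (1 + 2 * g) ^ 3 with ha
  set R := qR w g / (2 * (1 + 2 * g) ^ 3) with hR
  set M := qM w g / (1 + 2 * g) ^ 3 with hM
  set S := -(ww w g * g) * (1 / (2 * (1 + 2 * g) ^ 2)) with hS'
  set b := g / (1 + 2 * g) with hb
  have hb0 : 0 < b := by positivity
  have hi0 : 0 < M * b - S ^ 2 := by
    have e : M * b - S ^ 2 = qInner w g / (4 * (1 + 2 * g) ^ 4) := by
      rw [hM, hb, hS', qInner]; field_simp; ring
    rw [e]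
    exact div_pos (qInner_pos w g hg0 hw.le hw' hg') (by positivity)
  have hd0 : 0 < a * (M * b - S ^ 2) - R ^ 2 * b := by
    have e : a * (M * b - S ^ 2) - R ^ 2 * b = qDet w g / (4 * (1 + 2 * g) ^ 7) := by
      rw [ha, hM, hb, hS', hR, qDet, qInner]; field_simp; ring
    rw [e]
    exact div_pos (qDet_pos w g hg0 hw.le hw' hg') (by positivity)
  have hT0 : 0 ≤ cT w g := by
    have h2 : 0 ≤ M := by
      by_contra hM0
      nlinarith [mul_neg_of_neg_of_pos (not_le.1 hM0) hb0, sq_nonneg S]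
    have e : cT w g = M + (1 / 2 - 1 / (n : ℝ)) *
        ((c2 g + 1 / 2) ^ 2 + (c3 w g + cA g / 2) ^ 2) := by
      rw [hM, hN]; simp only [cT, c2, c3, cA, qM, qB, qC2, qC3]; field_simp; ring
    rw [e]
    refine add_nonneg h2 (mul_nonneg ?_ (by positivity))
    rw [sub_nonneg]
    exact div_le_div_of_nonneg_left one_pos.le two_pos (by linarith)
  have ev : ∀ {f : ℝ → ℝ}, Continuous f → 0 < f 0 → ∀ᶠ ε in 𝓝[>] (0 : ℝ), 0 < f ε :=
    fun hf hf0 => eventually_nhdsWithin_of_eventually_nhds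
      ((hf.tendsto 0).eventually (eventually_gt_nhds hf0))
  obtain ⟨ε, e1, e2, e3, e4, e5, hε⟩ := ((ev (f := fun ε => b - ε) (by fun_prop)
    (by simpa using hb0)).and ((ev (f := fun ε => M * (b - ε) - S ^ 2) (by fun_prop)
    (by simpa using hi0)).and ((ev (f := fun ε => (a - ε) * (M * (b - ε) - S ^ 2) -
      R ^ 2 * (b - ε)) (by fun_prop) (by simpa using hd0)).and
    ((ev (f := fun ε => sideT n w g q ε) (by unfold sideT; fun_prop) hT).and
    ((eventually_nhdsWithin_of_eventually_nhds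
      (eventually_le_nhds (by positivity : (0 : ℝ) < 1 / n))).and
        (eventually_mem_nhdsWithin (s := Set.Ioi (0 : ℝ)))))))).exists
  have hε0 : 0 < ε := hε
  have hn0 : (0 : ℝ) < n := by linarith
  have hP : 0 < -(1 + 2 / (n : ℝ)) * c1 w g - (cA g - 2) / n := by
    have h3 : 0 ≤ g * (1 + g / 2 - g * w) := mul_nonneg hg0.le (by nlinarith)
    have h4 : c1 w g < 0 := by
      refine div_neg_of_neg_of_pos ?_ hD
      simp only [qC1, qB, uu, ee]
      linarith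
    have h5 : cA g - 2 < 0 := by
      rw [sub_neg, cA, div_lt_iff₀ hD]
      simp only [qB, ee]
      nlinarith [sq_nonneg g]
    have := mul_pos (show (0 : ℝ) < 1 + 2 / n by positivity) (neg_pos.2 h4)
    have := div_neg_of_neg_of_pos h5 hn0
    linarith
  have hQ : 0 < -(1 + 2 / (n : ℝ)) * (-1 / 2) - (1 - 2) / n := by
    have : 0 < 2 / (n : ℝ) := by positivity
    have : ((1 : ℝ) - 2) / n < 0 := div_neg_of_neg_of_pos (by norm_num) hn0
    linarith
  obtain ⟨δ, hδ, hc⟩ := isCert_of_blocks (n := n) (p := p) (q := q) (A := cA g) (B := 1)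
    (c₁ := c1 w g) (c₂ := c2 g) (c₃ := c3 w g) (c₄ := -1 / 2) (g := cG w g)
    (h := 2 / (n : ℝ) - 2 * ε - cG w g) (τ := cT w g) (by omega) hε0 hT0
    (fun x y z => by
      rw [wForm_eq hg0 hN, ← ha, ← hR, ← hM, ← hS', ← hb]
      have := form_nonneg e1 e2 e3 x y z
      linarith)
    hP (by rw [sideS] at hS; linarith) hQ (by have := e4; rw [sideT] at this; linarith)
    (fun s t _ _ => by
      have := mul_nonneg (sub_nonneg.2 e5) (sq_nonneg (s - t))
      linear_combination this)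
  exact ⟨δ, _, hδ, hc⟩

theorem IsSol.swap {n : ℕ} {p q : ℝ} {u v : (Fin n → ℝ) → ℝ} (h : IsSol p q u v) :
    IsSol q p v u :=
  ⟨h.smooth_v, h.smooth_u, h.cont_v, h.cont_u, h.pos_v, h.pos_u, h.eq_v, h.eq_u⟩

theorem no_solution_ordered {n : ℕ} (hn : 5 ≤ n) {p q : ℝ} (hq : 0 < q) (hqp : q ≤ p)
    (hpq : 1 < p * q) (hreg : 15 / 14 * ((n : ℝ) - 2) * (p * q - 1) ≤ 2 * (p + q + 2)) :
    ¬ ∃ u v : (Fin n → ℝ) → ℝ, IsSol p q u v := by
  have hN : (5 : ℝ) ≤ n := by exact_mod_cast hn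
  have hs : 0 < p + q + 2 := by linarith
  set w := (q + 1) / (p + q + 2) with hw
  set g := 1 / ((n : ℝ) - 2) with hg
  set h := (p * q - 1) / (p + q + 2) with hh
  have hw0 : 0 < w := div_pos (by linarith) hs
  have hw1 : w ≤ 1 / 2 := by rw [hw, div_le_iff₀ hs]; linarith
  have hh0 : 0 ≤ h := div_nonneg (by linarith) hs.le
  have hg0 : 0 < g := div_pos one_pos (by linarith)
  have hh1 : h ≤ 28 / 15 * g := by
    rw [hg, mul_one_div, hh, div_le_div_iff₀ hs (by linarith)]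
    linarith
  obtain ⟨δ, c, hδ, hc⟩ := exists_cert hn hw0 hw1 hg hh0 hh1 (p := p) (q := q)
    (by rw [hw, hh]; field_simp; ring)
    (by
      rw [hw, hh, one_sub_div hs.ne', ← add_div, div_div_div_cancel_right₀ hs.ne',
        eq_div_iff (by linarith)]
      ring)
  have hA1 : 1 / 3 ≤ cA g := by
    have hg' : g ≤ 1 / 3 := div_le_div_of_nonneg_left one_pos.le (by norm_num) (by linarith)
    rw [cA, le_div_iff₀ (by positivity)]
    simp only [qB, ee]
    nlinarith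
  have hA : 0 ≤ cA g := by linarith
  refine no_solution_of_cert (by omega) hpq (by linarith [mul_nonneg hq.le (zero_le_one (α := ℝ))])
    (add_nonneg (mul_nonneg (by linarith) hA) zero_le_one) ?_ hδ hc
  rw [← sub_lt_iff_lt_add', mul_div_assoc']
  rw [lt_div_iff₀ (by linarith)]
  have key : (n : ℝ) - 4 < cA g * (15 / 14 * ((n : ℝ) - 2)) := by
    have e : cA g * (15 / 14 * ((n : ℝ) - 2)) =
        15 / 14 * ((n : ℝ) - 2 - 2 * (1 + 7 / 4 * g) * g * ((n : ℝ) - 2) / (1 + 2 * g)) := by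
      rw [cA]; simp only [qB, ee]; field_simp; ring
    rw [e]
    have h2 : 2 * (1 + 7 / 4 * g) * g * ((n : ℝ) - 2) / (1 + 2 * g) ≤ 2 := by
      rw [div_le_iff₀ (by positivity)]
      have : g * ((n : ℝ) - 2) = 1 := one_div_mul_cancel (by linarith : (n : ℝ) - 2 ≠ 0)
      nlinarith
    linarith
  have hAB : cA g ≤ 1 := by
    rw [cA, div_le_iff₀ (by positivity)]
    simp only [qB, ee]
    nlinarith [sq_nonneg g]
  calc ((n : ℝ) - 4) * (p * q - 1)
      < cA g * (15 / 14 * ((n : ℝ) - 2)) * (p * q - 1) := by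
        exact mul_lt_mul_of_pos_right key (by linarith)
    _ ≤ cA g * (2 * (p + q + 2)) := by
        rw [mul_assoc]; exact mul_le_mul_of_nonneg_left hreg hA
    _ ≤ _ := by nlinarith [mul_nonneg (sub_nonneg.2 hAB) (by linarith : (0 : ℝ) ≤ q + 1)]

/-- **Nonexistence for `n ≥ 5` and `α + β ≥ 15 (n - 2) / 14`.** -/
theorem no_solution {n : ℕ} (hn : 5 ≤ n) {p q : ℝ} (hp : 0 < p) (hq : 0 < q) (hpq : 1 < p * q)
    (hreg : 15 / 14 * ((n : ℝ) - 2) * (p * q - 1) ≤ 2 * (p + q + 2)) :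
    ¬ ∃ u v : (Fin n → ℝ) → ℝ, IsSol p q u v := by
  rcases le_total q p with h | h
  · exact no_solution_ordered hn hq h hpq hreg
  · rintro ⟨u, v, huv⟩
    exact no_solution_ordered hn hp h (by rwa [mul_comm]) (by rw [mul_comm q p]; linarith)
      ⟨v, u, huv.swap⟩

end Vale.Agent.P100.FamilyTwo
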