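import Mathlib

/-!
# P100: the polynomials of the second certificate family

`g = 1/(n-2)`, `w = β/(α+β)`, `D = 1 + 2g`, so `1/n = g/D`. Each polynomial is one of the
conditions of the block certificate, cleared of its positive denominator.
-/

namespace Vale.Agent.P100.FamilyTwo

/-- The exponent offset: `A = 1 + ee g / n`. -/
noncomputable def ee (g : ℝ) : ℝ := -2 - 7 / 2 * g

/-- The completed square parameter on `a ⊗ a`. -/
noncomputable def uu (w g : ℝ) : ℝ := 2 + 9 / 4 * g - g * w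

/-- The completed square parameter on `sym (a ⊗ b)` for `u`. -/
noncomputable def mm (g : ℝ) : ℝ := 5 / 2 * g

/-- The completed square parameter on `sym (a ⊗ b)` for `v`. -/
noncomputable def ww (w g : ℝ) : ℝ := 2 + 3 / 2 * g + 4 * g * w - 1 / 2 * w

/-- The correction in the coefficient of `s b`. -/
noncomputable def psi (w g : ℝ) : ℝ :=
  -141 / 200 + 57 / 40 * w + 43 / 24 * g - 16 / 7 * g * w - 11 / 8 * g ^ 2 + 1 / 8 * g ^ 2 * w

/-- `w (1 - w)` times the coefficient of `s b`. -/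
noncomputable def gam (w g : ℝ) : ℝ := (1 - 2 * w) / 2 + g * psi w g

/-- `A` times `1 + 2g`. -/
noncomputable def qB (g : ℝ) : ℝ := 1 + 2 * g + ee g * g

/-- `c₁` times `1 + 2g`. -/
noncomputable def qC1 (w g : ℝ) : ℝ :=
  -(1 + 2 * g) - uu w g * g - (qB g - 2 * (1 + 2 * g)) / 2

/-- `c₂` times `1 + 2g`. -/
noncomputable def qC2 (g : ℝ) : ℝ := -(mm g * g) - (1 + 2 * g) / 2

/-- `c₃` times `1 + 2g`. -/
noncomputable def qC3 (w g : ℝ) : ℝ := -(ww w g * g) - qB g / 2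

/-- The `|a|⁴` coefficient times `(1 + 2g)³`. -/
noncomputable def qA (w g : ℝ) : ℝ :=
  qC1 w g * (qB g - 3 * (1 + 2 * g)) * (1 + 2 * g) -
    (1 + g) * (-(1 + 2 * g) - uu w g * g) ^ 2

/-- The `|a|² (a·b)` coefficient times `(1 + 2g)³`. -/
noncomputable def qR (w g : ℝ) : ℝ :=
  (qC1 w g * (1 + 2 * g) + qC2 g * (qB g - 2 * (1 + 2 * g))) * (1 + 2 * g) -
    2 * (1 + g) * (-(1 + 2 * g) - uu w g * g) * -(mm g * g)

/-- The middle coefficient times `(1 + 2g)³`. -/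
noncomputable def qM (w g : ℝ) : ℝ :=
  qC3 w g * (qB g - (1 + 2 * g)) * (1 + 2 * g) - (1 + g) * ((mm g * g) ^ 2 + (ww w g * g) ^ 2)

/-- The lower minor times `4 (1 + 2g)⁴`. -/
noncomputable def qInner (w g : ℝ) : ℝ := 4 * qM w g * g - (-(ww w g * g)) ^ 2

/-- The determinant times `4 (1 + 2g)⁷`. -/
noncomputable def qDet (w g : ℝ) : ℝ := qA w g * qInner w g - qR w g ^ 2 * g

/-- The `(s, a, b)` determinant times `w² (1 - w)² (1 + 2g)⁴` at `p = (1 - w + h)/w`. -/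
noncomputable def qS (w g h : ℝ) : ℝ :=
  (-(1 + 4 * g) * qC1 w g - (qB g - 2 * (1 + 2 * g)) * g) *
      (-qC3 w g * w ^ 2 * (1 - w) ^ 2 + (1 + 2 * g) * gam w g * (1 - w + h) * (1 - w)) *
        (1 + 2 * g) -
    ((-2 * g * qC2 g - g * (1 + 2 * g)) * (w * (1 - w)) -
      (1 + 2 * g) ^ 2 * (1 - w) * (1 - w + h) + gam w g * ee g * g * (1 + 2 * g)) ^ 2 / 4

/-- The `(t, a, b)` determinant times `w (1 - w)² (1 + 2g)⁴` at `q = (w + h)/(1 - w)`. -/
noncomputable def qT (w g h : ℝ) : ℝ :=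
  (-qC2 g * w * (1 - w) ^ 2 * (1 + 2 * g) +
      (2 * g * (w * (1 - w)) - gam w g * (1 + 2 * g)) *
        ((w + h) * (1 + 2 * g) + (1 - w) * ee g * g)) *
      ((1 + 4 * g) / 2 + g) * (1 + 2 * g) -
    w * ((-2 * g * qC3 w g - qB g * g) * (1 - w) - (w + h) * (1 + 2 * g) ^ 2) ^ 2 / 4

end Vale.Agent.P100.FamilyTwo
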